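import Crest.Agent.R238.Red13

/-! # Row 238: further entry points to the inequality for slabs -/

set_option autoImplicit false

open MeasureTheory Set Filter Topology

noncomputable section

namespace Crest.Agent.R238

variable {n : ℕ} {ι : Type} [Fintype ι]

/-- the logarithmic Minkowski form: a supergradient at every point -/
def SUP (n : ℕ) : Prop :=
  ∀ (ι : Type) [Fintype ι] (a : ι → E n) (h : ι → ℝ), Sp a → (∀ j, ‖a j‖ = 1) → (∀ j, 0 < h j) →
    ∃ b : ι → ℝ, ∀ k : ι → ℝ, (∀ j, 0 < k j) →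
      Real.log (V a k) ≤ Real.log (V a h) + ∑ j, b j * (Real.log (k j) - Real.log (h j))

theorem GLO_of_SUP (hS : SUP n) : GLO n := by
  intro ι _ a h k ha h1 hh hk t ht0 ht1
  have hm : ∀ j, 0 < h j ^ (1 - t) * k j ^ t := fun j =>
    mul_pos (Real.rpow_pos_of_pos (hh j) _) (Real.rpow_pos_of_pos (hk j) _)
  obtain ⟨b, hb⟩ := hS ι a _ ha h1 hm
  have e : ∀ j, Real.log (h j ^ (1 - t) * k j ^ t) =
      (1 - t) * Real.log (h j) + t * Real.log (k j) := fun j => by
    rw [Real.log_mul (Real.rpow_pos_of_pos (hh j) _).ne' (Real.rpow_pos_of_pos (hk j) _).ne',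
      Real.log_rpow (hh j), Real.log_rpow (hk j)]
  have h2 := hb h hh
  have h3 := hb k hk
  simp only [e] at h2 h3
  have h4 : (1 - t) * ∑ j, b j * (Real.log (h j) - ((1 - t) * Real.log (h j) + t * Real.log (k j))) +
      t * ∑ j, b j * (Real.log (k j) - ((1 - t) * Real.log (h j) + t * Real.log (k j))) = 0 := by
    rw [Finset.mul_sum, Finset.mul_sum, ← Finset.sum_add_distrib]
    exact Finset.sum_eq_zero fun j _ => by ring
  rw [Real.rpow_def_of_pos (V_pos ha h1 hh), Real.rpow_def_of_pos (V_pos ha h1 hk), ← Real.exp_add,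
    ← Real.exp_log (V_pos ha h1 hm)]
  refine Real.exp_le_exp.2 ?_
  have h5 := mul_le_mul_of_nonneg_left h2 (sub_nonneg.2 ht1)
  have h6 := mul_le_mul_of_nonneg_left h3 ht0
  nlinarith

/-- the midpoint form -/
def MID (n : ℕ) : Prop :=
  ∀ (ι : Type) [Fintype ι] (a : ι → E n) (h k : ι → ℝ), Sp a → (∀ j, ‖a j‖ = 1) → (∀ j, 0 < h j) →
    (∀ j, 0 < k j) → V a h * V a k ≤ V a (fun j => Real.sqrt (h j * k j)) ^ 2

theorem LOC_of_MID (hM : MID n) : LOC n := by
  intro ι _ a h d ha h1 hh η hη ε₀ hε₀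
  refine ⟨ε₀ / 2, by linarith, by linarith, ?_⟩
  have h2 := hM ι a (fun j => h j * Real.exp (ε₀ / 2 * d j)) (fun j => h j * Real.exp (-(ε₀ / 2) * d j))
    ha h1 (fun j => mul_pos (hh j) (Real.exp_pos _)) (fun j => mul_pos (hh j) (Real.exp_pos _))
  have e : (fun j => Real.sqrt (h j * Real.exp (ε₀ / 2 * d j) * (h j * Real.exp (-(ε₀ / 2) * d j)))) =
      h := by
    funext j
    rw [mul_mul_mul_comm, ← Real.exp_add, show ε₀ / 2 * d j + -(ε₀ / 2) * d j = 0 by ring,
      Real.exp_zero, mul_one, Real.sqrt_mul_self (hh j).le]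
  rw [e] at h2
  refine h2.trans (le_mul_of_one_le_right (sq_nonneg _) (Real.one_le_exp (by positivity)))

/-- soft walls -/
def Z (p : ℕ) (a : ι → E n) (h : ι → ℝ) : ℝ :=
  ∫ x : E n, Real.exp (-∑ j, (inner ℝ x (a j) / h j) ^ (2 * p))

/-- the soft form -/
def SOFT (n : ℕ) : Prop :=
  ∀ (ι : Type) [Fintype ι] (a : ι → E n) (h k : ι → ℝ), Sp a → (∀ j, ‖a j‖ = 1) → (∀ j, 0 < h j) →
    (∀ j, 0 < k j) → ∀ᶠ p in atTop, Z p a h * Z p a k ≤ Z p a (fun j => Real.sqrt (h j * k j)) ^ 2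

theorem gauss_int {a : ι → E n} (ha : Sp a) {h : ι → ℝ} (hh : ∀ j, 0 < h j) :
    ∃ c : ℝ, 0 < c ∧ ∀ (x : E n) (p : ℕ), 1 ≤ p →
      Real.exp (-∑ j, (inner ℝ x (a j) / h j) ^ (2 * p)) ≤ Real.exp 1 * Real.exp (-c * ‖x‖ ^ 2) := by
  obtain ⟨C, hC⟩ := ha
  set H := ∑ j, h j + 1 with hH
  have hH0 : 0 < H := by
    have : 0 ≤ ∑ j, h j := Finset.sum_nonneg fun j _ => (hh j).le
    linarith
  refine ⟨1 / ((|C| + 1) * H) ^ 2, by positivity, fun x p hp => ?_⟩
  rw [← Real.exp_add]
  refine Real.exp_le_exp.2 ?_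
  set S := ∑ j, (inner ℝ x (a j) / h j) ^ (2 * p) with hS
  have hnn : ∀ j, 0 ≤ (inner ℝ x (a j) / h j) ^ (2 * p) := fun j => by
    rw [pow_mul]; positivity
  have hS0 : 0 ≤ S := Finset.sum_nonneg fun j _ => hnn j
  have h1 : ∀ j, |inner ℝ x (a j)| ≤ H * Real.sqrt (S + 1) := by
    intro j
    have h2 : (inner ℝ x (a j) / h j) ^ (2 * p) ≤ S :=
      Finset.single_le_sum (f := fun j => (inner ℝ x (a j) / h j) ^ (2 * p)) (fun j _ => hnn j)
        (Finset.mem_univ j)
    have h3 : (inner ℝ x (a j) / h j) ^ 2 ≤ S + 1 := by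
      rcases le_total ((inner ℝ x (a j) / h j) ^ 2) 1 with h4 | h4
      · linarith
      · have : (inner ℝ x (a j) / h j) ^ 2 ≤ ((inner ℝ x (a j) / h j) ^ 2) ^ p :=
          le_self_pow₀ h4 (by omega)
        rw [← pow_mul] at this
        linarith
    have h5 := Real.abs_le_sqrt h3
    rw [abs_div, abs_of_pos (hh j), div_le_iff₀ (hh j)] at h5
    have h6 : h j ≤ H := by
      have : h j ≤ ∑ j, h j :=
        Finset.single_le_sum (f := h) (fun j _ => (hh j).le) (Finset.mem_univ j)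
      linarith
    nlinarith [Real.sqrt_nonneg (S + 1)]
  have h7 := hC x _ h1
  have h8 : ‖x‖ ≤ (|C| + 1) * H * Real.sqrt (S + 1) := by
    have h9 : 0 ≤ H * Real.sqrt (S + 1) := by positivity
    nlinarith [le_abs_self C]
  have h10 : ‖x‖ ^ 2 ≤ ((|C| + 1) * H) ^ 2 * (S + 1) := by
    calc ‖x‖ ^ 2 ≤ ((|C| + 1) * H * Real.sqrt (S + 1)) ^ 2 := by gcongr
      _ = _ := by rw [mul_pow, Real.sq_sqrt (by linarith)]
  have h11 : 1 / ((|C| + 1) * H) ^ 2 * ‖x‖ ^ 2 ≤ S + 1 := by
    rw [one_div, inv_mul_le_iff₀ (by positivity)]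
    exact h10
  linarith

theorem wall_null (a : E n) (ha : ‖a‖ = 1) (r : ℝ) (hr : 0 < r) :
    volume {x : E n | |inner ℝ x a| = r} = 0 := by
  have key : ∀ c : ℝ, volume {x : E n | inner ℝ x a = c} = 0 := by
    intro c
    let S : AffineSubspace ℝ (E n) := AffineSubspace.mk' (c • a) (ℝ ∙ a)ᗮ
    have hS : S ≠ ⊤ := by
      intro h
      have : c • a + a ∈ S := by rw [h]; trivial
      rw [AffineSubspace.mem_mk', vsub_eq_sub, add_sub_cancel_left,
        Submodule.mem_orthogonal_singleton_iff_inner_right, real_inner_self_eq_norm_sq, ha] at this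
      norm_num at this
    refine measure_mono_null (fun x hx => ?_) (Measure.addHaar_affineSubspace volume S hS)
    show x ∈ S
    rw [AffineSubspace.mem_mk', vsub_eq_sub, Submodule.mem_orthogonal_singleton_iff_inner_left,
      inner_sub_left, real_inner_smul_left, real_inner_self_eq_norm_sq, ha]
    have : inner ℝ x a = c := hx
    rw [this]; ring
  refine measure_mono_null (fun x hx => ?_) (measure_union_null (key r) (key (-r)))
  exact (abs_eq hr.le).1 hx

theorem Z_tendsto {a : ι → E n} (ha : Sp a) (h1 : ∀ j, ‖a j‖ = 1) {h : ι → ℝ} (hh : ∀ j, 0 < h j) :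
    Tendsto (fun p => Z p a h) atTop (𝓝 (V a h)) := by
  obtain ⟨c, hc, hb⟩ := gauss_int ha hh
  have hV : V a h = ∫ x : E n, (slab a h).indicator (fun _ => (1 : ℝ)) x := by
    rw [integral_indicator (slab_closed a h).measurableSet]
    simp [V, Measure.real]
  rw [hV]
  refine tendsto_integral_filter_of_dominated_convergence
    (fun x => Real.exp 1 * Real.exp (-c * ‖x‖ ^ 2)) ?_ ?_ ?_ ?_
  · exact Eventually.of_forall fun p => Continuous.aestronglyMeasurable (by fun_prop)
  · filter_upwards [eventually_ge_atTop 1] with p hp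
    refine Eventually.of_forall fun x => ?_
    rw [Real.norm_eq_abs, abs_of_pos (Real.exp_pos _)]
    exact hb x p hp
  · refine Integrable.const_mul ?_ _
    have := (GaussianFourier.integrable_cexp_neg_mul_sq_norm_add (V := E n) (b := (c : ℂ))
      (by simpa using hc) 0 0).norm
    refine this.congr (Eventually.of_forall fun x => ?_)
    simp [Complex.norm_exp, ← Complex.ofReal_pow]
  · have hnull : ∀ᵐ x : E n, ∀ j, |inner ℝ x (a j)| ≠ h j :=
      ae_all_iff.2 fun j => measure_eq_zero_iff_ae_notMem.1 (wall_null (a j) (h1 j) (h j) (hh j))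
    filter_upwards [hnull] with x hx
    have hsq : ∀ j (p : ℕ), (inner ℝ x (a j) / h j) ^ (2 * p) = (|inner ℝ x (a j)| / h j) ^ (2 * p) := by
      intro j p
      rw [pow_mul, pow_mul, div_pow (|inner ℝ x (a j)|), sq_abs, ← div_pow]
    by_cases hm : x ∈ slab a h
    · rw [indicator_of_mem hm]
      have h0 : Tendsto (fun p : ℕ => ∑ j, (inner ℝ x (a j) / h j) ^ (2 * p)) atTop (𝓝 0) := by
        rw [show (0 : ℝ) = ∑ _j : ι, 0 by simp]
        refine tendsto_finset_sum _ fun j _ => ?_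
        simp only [hsq]
        have hlt : |inner ℝ x (a j)| / h j < 1 :=
          (div_lt_one (hh j)).2 (lt_of_le_of_ne (hm j) (hx j))
        exact (tendsto_pow_atTop_nhds_zero_of_lt_one (div_nonneg (abs_nonneg _) (hh j).le) hlt).comp
          (tendsto_id.const_mul_atTop' (by norm_num : 0 < 2))
      simpa [Function.comp_def] using (Real.continuous_exp.tendsto _).comp h0.neg
    · rw [indicator_of_notMem hm]
      obtain ⟨j, hj⟩ : ∃ j, h j < |inner ℝ x (a j)| := by
        by_contra hcon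
        exact hm fun j => not_lt.1 fun hj => hcon ⟨j, hj⟩
      have hgt : 1 < |inner ℝ x (a j)| / h j := (one_lt_div (hh j)).2 hj
      have h2 : Tendsto (fun p : ℕ => (|inner ℝ x (a j)| / h j) ^ (2 * p)) atTop atTop :=
        (tendsto_pow_atTop_atTop_of_one_lt hgt).comp
          (tendsto_id.const_mul_atTop' (by norm_num : 0 < 2))
      have h3 : Tendsto (fun p : ℕ => ∑ j, (inner ℝ x (a j) / h j) ^ (2 * p)) atTop atTop := by
        refine tendsto_atTop_mono (fun p => ?_) h2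
        rw [← hsq]
        exact Finset.single_le_sum (f := fun j => (inner ℝ x (a j) / h j) ^ (2 * p))
          (fun j _ => by rw [pow_mul]; positivity) (Finset.mem_univ j)
      exact Real.tendsto_exp_neg_atTop_nhds_zero.comp h3

theorem MID_of_SOFT (hS : SOFT n) : MID n := by
  intro ι _ a h k ha h1 hh hk
  have hm : ∀ j, 0 < Real.sqrt (h j * k j) := fun j => Real.sqrt_pos.2 (mul_pos (hh j) (hk j))
  exact le_of_tendsto_of_tendsto ((Z_tendsto ha h1 hh).mul (Z_tendsto ha h1 hk))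
    ((Z_tendsto ha h1 hm).pow 2) (hS ι a h k ha h1 hh hk)

end Crest.Agent.R238
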