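import Mathlib

/-! # Row 238: reduction of the statement to a local inequality for finitely many slabs -/

set_option autoImplicit false

open MeasureTheory Set Filter Topology
open scoped Pointwise

noncomputable section

namespace Crest.Agent.R238

/-- Euclidean space -/
abbrev E (n : ℕ) := EuclideanSpace ℝ (Fin n)

variable {n : ℕ} {ι : Type} [Fintype ι]

/-- the intersection of the slabs -/
def slab (a : ι → E n) (h : ι → ℝ) : Set (E n) := {x | ∀ j, |inner ℝ x (a j)| ≤ h j}

/-- its volume -/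
def V (a : ι → E n) (h : ι → ℝ) : ℝ := (volume (slab a h)).toReal

/-- the family controls the norm (it spans) -/
def Sp (a : ι → E n) : Prop := ∃ C : ℝ, ∀ x : E n, ∀ r : ℝ, (∀ j, |inner ℝ x (a j)| ≤ r) → ‖x‖ ≤ C * r

/-- the local inequality -/
def LOC (n : ℕ) : Prop :=
  ∀ (ι : Type) [Fintype ι] (a : ι → E n) (h d : ι → ℝ), Sp a → (∀ j, ‖a j‖ = 1) → (∀ j, 0 < h j) →
    ∀ η : ℝ, 0 < η → ∀ ε₀ : ℝ, 0 < ε₀ → ∃ ε : ℝ, 0 < ε ∧ ε < ε₀ ∧
      V a (fun j => h j * Real.exp (ε * d j)) * V a (fun j => h j * Real.exp (-ε * d j)) ≤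
        V a h ^ 2 * Real.exp (η * ε ^ 2)

/-- the global inequality for slabs -/
def GLO (n : ℕ) : Prop :=
  ∀ (ι : Type) [Fintype ι] (a : ι → E n) (h k : ι → ℝ), Sp a → (∀ j, ‖a j‖ = 1) → (∀ j, 0 < h j) →
    (∀ j, 0 < k j) → ∀ t : ℝ, 0 ≤ t → t ≤ 1 →
      V a h ^ (1 - t) * V a k ^ t ≤ V a (fun j => h j ^ (1 - t) * k j ^ t)

theorem slab_closed (a : ι → E n) (h : ι → ℝ) : IsClosed (slab a h) := by
  have : slab a h = ⋂ j, {x | |inner ℝ x (a j)| ≤ h j} := by
    ext x; simp [slab]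
  rw [this]
  exact isClosed_iInter fun j => isClosed_le (by fun_prop) continuous_const

theorem slab_mono (a : ι → E n) {h k : ι → ℝ} (hk : ∀ j, h j ≤ k j) : slab a h ⊆ slab a k :=
  fun _ hx j => (hx j).trans (hk j)

theorem slab_fin {a : ι → E n} (ha : Sp a) (h : ι → ℝ) : volume (slab a h) ≠ ⊤ := by
  obtain ⟨C, hC⟩ := ha
  have : slab a h ⊆ Metric.closedBall 0 (C * ∑ j, |h j|) := by
    intro x hx
    rw [mem_closedBall_zero_iff]
    refine hC x _ fun j => (hx j).trans ((le_abs_self _).trans ?_)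
    exact Finset.single_le_sum (f := fun j => |h j|) (fun _ _ => abs_nonneg _) (Finset.mem_univ j)
  exact ((measure_mono this).trans_lt (isCompact_closedBall _ _).measure_lt_top).ne

theorem V_mono {a : ι → E n} (ha : Sp a) {h k : ι → ℝ} (hk : ∀ j, h j ≤ k j) : V a h ≤ V a k :=
  ENNReal.toReal_mono (slab_fin ha k) (measure_mono (slab_mono a hk))

theorem V_pos {a : ι → E n} (ha : Sp a) (h1 : ∀ j, ‖a j‖ = 1) {h : ι → ℝ} (hh : ∀ j, 0 < h j) :
    0 < V a h := by
  refine ENNReal.toReal_pos ?_ (slab_fin ha h)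
  have hU : IsOpen (⋂ j, {x : E n | |inner ℝ x (a j)| < h j}) :=
    isOpen_iInter_of_finite fun j => isOpen_lt (by fun_prop) continuous_const
  have hne : (⋂ j, {x : E n | |inner ℝ x (a j)| < h j}).Nonempty :=
    ⟨0, by simp [hh]⟩
  have hsub : (⋂ j, {x : E n | |inner ℝ x (a j)| < h j}) ⊆ slab a h := by
    intro x hx j
    exact (mem_iInter.1 hx j).le
  exact ((hU.measure_pos volume hne).trans_le (measure_mono hsub)).ne'

theorem V_smul (a : ι → E n) (h : ι → ℝ) {c : ℝ} (hc : 0 < c) :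
    V a (fun j => c * h j) = c ^ n * V a h := by
  have : slab a (fun j => c * h j) = c • slab a h := by
    ext x
    rw [mem_smul_set_iff_inv_smul_mem₀ hc.ne']
    simp only [slab, mem_setOf_eq, real_inner_smul_left, abs_mul, abs_inv, abs_of_pos hc]
    refine forall_congr' fun j => ?_
    rw [inv_mul_le_iff₀ hc]
  unfold V
  rw [this, Measure.addHaar_smul, ENNReal.toReal_mul, ENNReal.toReal_ofReal (abs_nonneg _),
    finrank_euclideanSpace_fin, abs_of_pos (pow_pos hc n)]

/-- Lipschitz bound along an exponential line -/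
theorem log_V_le {a : ι → E n} (ha : Sp a) (h1 : ∀ j, ‖a j‖ = 1) {h : ι → ℝ} (hh : ∀ j, 0 < h j)
    (d : ι → ℝ) (s t : ℝ) :
    Real.log (V a fun j => h j * Real.exp (s * d j)) -
      Real.log (V a fun j => h j * Real.exp (t * d j)) ≤ n * (∑ j, |d j|) * |s - t| := by
  set D := ∑ j, |d j|
  have hp : ∀ u : ℝ, 0 < V a fun j => h j * Real.exp (u * d j) := fun u =>
    V_pos ha h1 fun j => mul_pos (hh j) (Real.exp_pos _)
  have h2 : V a (fun j => h j * Real.exp (s * d j)) ≤
      V a (fun j => Real.exp (D * |s - t|) * (h j * Real.exp (t * d j))) := by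
    refine V_mono ha fun j => ?_
    have h3 : |d j| ≤ D :=
      Finset.single_le_sum (f := fun j => |d j|) (fun _ _ => abs_nonneg _) (Finset.mem_univ j)
    have h4 : s * d j ≤ D * |s - t| + t * d j := by
      have : (s - t) * d j ≤ |s - t| * |d j| := by rw [← abs_mul]; exact le_abs_self _
      nlinarith [abs_nonneg (s - t)]
    rw [mul_left_comm, ← Real.exp_add]
    exact mul_le_mul_of_nonneg_left (Real.exp_le_exp.2 h4) (hh j).le
  rw [V_smul _ _ (Real.exp_pos _)] at h2
  have h5 := Real.log_le_log (hp s) h2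
  rw [Real.log_mul (pow_pos (Real.exp_pos _) n).ne' (hp t).ne', Real.log_pow, Real.log_exp] at h5
  nlinarith

theorem cont_log_V {a : ι → E n} (ha : Sp a) (h1 : ∀ j, ‖a j‖ = 1) {h : ι → ℝ} (hh : ∀ j, 0 < h j)
    (d : ι → ℝ) : Continuous fun s : ℝ => Real.log (V a fun j => h j * Real.exp (s * d j)) := by
  refine (LipschitzWith.of_dist_le_mul (K := Real.toNNReal (n * ∑ j, |d j|)) fun s t => ?_).continuous
  have h0 : (0 : ℝ) ≤ n * ∑ j, |d j| :=
    mul_nonneg (Nat.cast_nonneg _) (Finset.sum_nonneg fun _ _ => abs_nonneg _)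
  rw [Real.coe_toNNReal _ h0, Real.dist_eq, Real.dist_eq, abs_sub_le_iff]
  refine ⟨log_V_le ha h1 hh d s t, ?_⟩
  rw [abs_sub_comm]
  exact log_V_le ha h1 hh d t s

/-- symmetric second differences -/
theorem schwarz {f : ℝ → ℝ} (hf : Continuous f)
    (h : ∀ t η : ℝ, 0 < η → ∀ ε₀ : ℝ, 0 < ε₀ → ∃ ε : ℝ, 0 < ε ∧ ε < ε₀ ∧
      f (t + ε) + f (t - ε) ≤ 2 * f t + η * ε ^ 2) {t : ℝ} (h0 : 0 ≤ t) (h1 : t ≤ 1) :
    (1 - t) * f 0 + t * f 1 ≤ f t := by
  have key : ∀ η : ℝ, 0 < η → 0 ≤ f t - ((1 - t) * f 0 + t * f 1) + η * (t * (1 - t)) := by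
    intro η hη
    set g : ℝ → ℝ := fun u => f u - ((1 - u) * f 0 + u * f 1) + η * (u * (1 - u)) with hg
    have hgc : Continuous g := by rw [hg]; fun_prop
    obtain ⟨u, hu, hmin⟩ := isCompact_Icc.exists_isMinOn (s := Icc (0 : ℝ) 1) ⟨0, by simp⟩
      hgc.continuousOn
    have hgt : g u ≤ g t := hmin ⟨h0, h1⟩
    by_contra hneg
    have hneg' : g t < 0 := lt_of_not_ge hneg
    have hu0 : u ≠ 0 := by
      rintro rfl
      have : g 0 = 0 := by simp [hg]
      linarith
    have hu1 : u ≠ 1 := by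
      rintro rfl
      have : g 1 = 0 := by simp [hg]
      linarith
    have hu0' : 0 < u := lt_of_le_of_ne hu.1 (Ne.symm hu0)
    have hu1' : 0 < 1 - u := sub_pos.2 (lt_of_le_of_ne hu.2 hu1)
    obtain ⟨ε, he0, he1, he⟩ := h u η hη (min u (1 - u)) (lt_min hu0' hu1')
    have ha := lt_min_iff.1 he1
    have hp : g u ≤ g (u + ε) := hmin ⟨by linarith, by linarith [ha.2]⟩
    have hm : g u ≤ g (u - ε) := hmin ⟨by linarith [ha.1], by linarith [hu.2]⟩
    simp only [hg] at hp hm
    nlinarith [mul_pos hη (pow_pos he0 2)]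
  by_contra hc
  have hc' : 0 < (1 - t) * f 0 + t * f 1 - f t := by linarith [lt_of_not_ge hc]
  have h2 := key (((1 - t) * f 0 + t * f 1 - f t)) hc'
  have h3 : t * (1 - t) ≤ 1 / 4 := by nlinarith [sq_nonneg (t - 1 / 2)]
  nlinarith

theorem GLO_of_LOC (hL : LOC n) : GLO n := by
  intro ι _ a h k ha h1 hh hk t ht0 ht1
  set d : ι → ℝ := fun j => Real.log (k j) - Real.log (h j) with hd
  set f : ℝ → ℝ := fun s => Real.log (V a fun j => h j * Real.exp (s * d j)) with hf
  have hp : ∀ u : ℝ, 0 < V a fun j => h j * Real.exp (u * d j) := fun u =>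
    V_pos ha h1 fun j => mul_pos (hh j) (Real.exp_pos _)
  have hs := schwarz (f := f) (cont_log_V ha h1 hh d) (fun s η hη ε₀ hε₀ => by
    obtain ⟨ε, he0, he1, he⟩ := hL ι a (fun j => h j * Real.exp (s * d j)) d ha h1
      (fun j => mul_pos (hh j) (Real.exp_pos _)) η hη ε₀ hε₀
    refine ⟨ε, he0, he1, ?_⟩
    have e1 : (fun j => h j * Real.exp (s * d j) * Real.exp (ε * d j)) =
        fun j => h j * Real.exp ((s + ε) * d j) := by
      funext j; rw [mul_assoc, ← Real.exp_add]; congr 2; ring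
    have e2 : (fun j => h j * Real.exp (s * d j) * Real.exp (-ε * d j)) =
        fun j => h j * Real.exp ((s - ε) * d j) := by
      funext j; rw [mul_assoc, ← Real.exp_add]; congr 2; ring
    rw [e1, e2] at he
    have h5 := Real.log_le_log (mul_pos (hp _) (hp _)) he
    rw [Real.log_mul (hp _).ne' (hp _).ne', Real.log_mul (pow_pos (hp _) 2).ne' (Real.exp_pos _).ne',
      Real.log_pow, Real.log_exp] at h5
    simpa [hf] using h5) ht0 ht1
  have f0 : f 0 = Real.log (V a h) := by simp [hf]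
  have f1 : f 1 = Real.log (V a k) := by
    have : (fun j => h j * Real.exp (1 * d j)) = k := by
      funext j
      simp only [hd, one_mul, Real.exp_sub, Real.exp_log (hh j), Real.exp_log (hk j)]
      field_simp [(hh j).ne']
    simp only [hf, this]
  have ft : (fun j => h j * Real.exp (t * d j)) = fun j => h j ^ (1 - t) * k j ^ t := by
    funext j
    rw [Real.rpow_def_of_pos (hh j), Real.rpow_def_of_pos (hk j), ← Real.exp_add]
    conv_lhs => rw [← Real.exp_log (hh j), ← Real.exp_add]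
    congr 1
    simp only [hd]
    ring
  rw [f0, f1] at hs
  have hpt := hp t
  simp only [hf] at hs
  rw [ft] at hs hpt
  rw [Real.rpow_def_of_pos (V_pos ha h1 hh), Real.rpow_def_of_pos (V_pos ha h1 hk), ← Real.exp_add,
    ← Real.exp_log hpt]
  refine Real.exp_le_exp.2 ?_
  linarith

/-- the support function -/
def hs (K : Set (E n)) (u : E n) : ℝ := sSup ((fun y => inner ℝ y u) '' K)

theorem le_hs {K : Set (E n)} (hK : IsCompact K) {y : E n} (hy : y ∈ K) (u : E n) :
    inner ℝ y u ≤ hs K u :=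
  le_csSup (hK.image (by fun_prop)).bddAbove ⟨y, hy, rfl⟩

theorem hs_cont {K : Set (E n)} (hK : IsCompact K) : Continuous (hs K) :=
  hK.continuous_sSup (f := fun (u y : E n) => inner ℝ y u) (by
    show Continuous fun p : E n × E n => inner ℝ p.2 p.1
    fun_prop)

theorem hs_pos {K : Set (E n)} (hK : IsCompact K) (hv : Convex ℝ K) (hi : (interior K).Nonempty)
    (hs' : ∀ x ∈ K, -x ∈ K) {u : E n} (hu : ‖u‖ = 1) : 0 < hs K u := by
  obtain ⟨x, hx⟩ := hi
  obtain ⟨r, hr, hb⟩ := Metric.mem_nhds_iff.1 (mem_interior_iff_mem_nhds.1 hx)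
  have h1 : x + (r / 2) • u ∈ K := hb (by
    rw [Metric.mem_ball, dist_eq_norm, add_sub_cancel_left, norm_smul, hu, Real.norm_eq_abs,
      abs_of_pos (by linarith)]
    linarith)
  have h2 : -x ∈ K := hs' x (interior_subset hx)
  have h3 := le_hs hK h1 u
  have h4 := le_hs hK h2 u
  rw [inner_add_left, real_inner_smul_left, real_inner_self_eq_norm_sq, hu] at h3
  rw [inner_neg_left] at h4
  linarith

theorem sub_slab {K : Set (E n)} (hK : IsCompact K) (hs' : ∀ x ∈ K, -x ∈ K) (a : ι → E n) :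
    K ⊆ slab a fun j => hs K (a j) := by
  intro x hx j
  rw [abs_le]
  have h1 := le_hs hK hx (a j)
  have h2 := le_hs hK (hs' x hx) (a j)
  rw [inner_neg_left] at h2
  exact ⟨by linarith, h1⟩

theorem hs_neg {K : Set (E n)} (hs' : ∀ x ∈ K, -x ∈ K) (u : E n) : hs K (-u) = hs K u := by
  unfold hs
  congr 1
  ext r
  constructor
  · rintro ⟨y, hy, rfl⟩
    exact ⟨-y, hs' y hy, by simp⟩
  · rintro ⟨y, hy, rfl⟩
    exact ⟨-y, hs' y hy, by simp⟩

/-- the coordinate vectors together with the first `N` terms of a sequence -/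
def fam (u : ℕ → E n) (N : ℕ) : Fin n ⊕ Fin N → E n :=
  Sum.elim (fun i => EuclideanSpace.single i (1 : ℝ)) fun j => u j

theorem fam_sp (u : ℕ → E n) (N : ℕ) : Sp (fam u N) := by
  refine ⟨n, fun x r hx => ?_⟩
  have h1 : ∀ i, |x i| ≤ r := fun i => by
    have := hx (Sum.inl i)
    simpa [fam, EuclideanSpace.inner_single_right] using this
  have h2 : x = ∑ i, x i • EuclideanSpace.single i (1 : ℝ) := by
    ext j
    simp [Pi.single_apply, Finset.sum_apply]
  calc ‖x‖ = ‖∑ i, x i • EuclideanSpace.single i (1 : ℝ)‖ := by rw [← h2]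
    _ ≤ ∑ i, ‖x i • EuclideanSpace.single i (1 : ℝ)‖ := norm_sum_le _ _
    _ ≤ ∑ _i : Fin n, r := Finset.sum_le_sum fun i _ => by
        rw [norm_smul]; simpa using h1 i
    _ = n * r := by simp

theorem result_of_GLO (hn : 1 ≤ n) (hG : GLO n) (K L : Set (E n))
    (hKc : IsCompact K) (hKv : Convex ℝ K) (hKi : (interior K).Nonempty) (hKs : ∀ x ∈ K, -x ∈ K)
    (hLc : IsCompact L) (hLv : Convex ℝ L) (hLi : (interior L).Nonempty) (hLs : ∀ x ∈ L, -x ∈ L)
    (t : ℝ) (ht0 : 0 ≤ t) (ht1 : t ≤ 1) :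
    volume K ^ (1 - t) * volume L ^ t ≤
      volume (⋂ u ∈ Metric.sphere (0 : E n) 1,
        {x : E n | inner ℝ x u ≤
          sSup ((fun y => inner ℝ y u) '' K) ^ (1 - t) * sSup ((fun y => inner ℝ y u) '' L) ^ t}) := by
  haveI : Nonempty (Metric.sphere (0 : E n) 1) :=
    ⟨⟨EuclideanSpace.single ⟨0, hn⟩ (1 : ℝ), by simp⟩⟩
  obtain ⟨w, hw⟩ := TopologicalSpace.exists_dense_seq (Metric.sphere (0 : E n) 1)
  set u : ℕ → E n := fun j => (w j : E n) with hu
  have hu1 : ∀ j, ‖u j‖ = 1 := fun j => mem_sphere_zero_iff_norm.1 (w j).2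
  have hf1 : ∀ N j, ‖fam u N j‖ = 1 := by
    intro N j
    rcases j with i | j
    · simp [fam]
    · exact hu1 j
  set φ : E n → ℝ := fun v => hs K v ^ (1 - t) * hs L v ^ t with hφ
  set M : ℕ → Set (E n) := fun N => slab (fam u N) fun j => φ (fam u N j) with hM
  have hanti : Antitone M := by
    intro N N' hN x hx j
    rcases j with i | j
    · exact hx (Sum.inl i)
    · exact hx (Sum.inr ⟨j, lt_of_lt_of_le j.2 hN⟩)
  have hlim := tendsto_measure_iInter_atTop (μ := volume) (s := M)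
    (fun N => (slab_closed _ _).measurableSet.nullMeasurableSet) hanti
    ⟨0, slab_fin (fam_sp u 0) _⟩
  have hlow : ∀ N, volume K ^ (1 - t) * volume L ^ t ≤ volume (M N) := by
    intro N
    have hK0 : ∀ j, 0 < hs K (fam u N j) := fun j => hs_pos hKc hKv hKi hKs (hf1 N j)
    have hL0 : ∀ j, 0 < hs L (fam u N j) := fun j => hs_pos hLc hLv hLi hLs (hf1 N j)
    have h1 := hG _ (fam u N) _ _ (fam_sp u N) (hf1 N) hK0 hL0 t ht0 ht1
    have h2 : volume K ≤ ENNReal.ofReal (V (fam u N) fun j => hs K (fam u N j)) := by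
      unfold V
      rw [ENNReal.ofReal_toReal (slab_fin (fam_sp u N) _)]
      exact measure_mono (sub_slab hKc hKs _)
    have h3 : volume L ≤ ENNReal.ofReal (V (fam u N) fun j => hs L (fam u N j)) := by
      unfold V
      rw [ENNReal.ofReal_toReal (slab_fin (fam_sp u N) _)]
      exact measure_mono (sub_slab hLc hLs _)
    have hp1 := V_pos (fam_sp u N) (hf1 N) hK0
    have hp2 := V_pos (fam_sp u N) (hf1 N) hL0
    calc volume K ^ (1 - t) * volume L ^ t
        ≤ ENNReal.ofReal (V (fam u N) fun j => hs K (fam u N j)) ^ (1 - t) *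
          ENNReal.ofReal (V (fam u N) fun j => hs L (fam u N j)) ^ t :=
          mul_le_mul' (ENNReal.rpow_le_rpow h2 (by linarith)) (ENNReal.rpow_le_rpow h3 ht0)
      _ = ENNReal.ofReal ((V (fam u N) fun j => hs K (fam u N j)) ^ (1 - t) *
          (V (fam u N) fun j => hs L (fam u N j)) ^ t) := by
          rw [ENNReal.ofReal_rpow_of_pos hp1, ENNReal.ofReal_rpow_of_pos hp2,
            ENNReal.ofReal_mul (Real.rpow_pos_of_pos hp1 _).le]
      _ ≤ ENNReal.ofReal (V (fam u N) fun j => φ (fam u N j)) := ENNReal.ofReal_le_ofReal h1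
      _ = volume (M N) := by
          unfold V
          rw [ENNReal.ofReal_toReal (slab_fin (fam_sp u N) _)]
  refine (ge_of_tendsto' hlim hlow).trans (measure_mono ?_)
  intro x hx
  simp only [mem_iInter, mem_setOf_eq]
  intro v hv
  have hcl : IsClosed {p : Metric.sphere (0 : E n) 1 | inner ℝ x (p : E n) ≤ φ p} := by
    refine isClosed_le (by fun_prop) ?_
    refine Continuous.mul ?_ ?_
    · exact ((hs_cont hKc).comp continuous_subtype_val).rpow_const fun p => Or.inr (by linarith)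
    · exact ((hs_cont hLc).comp continuous_subtype_val).rpow_const fun p => Or.inr ht0
  have hall := hw.induction_on (p := fun p : Metric.sphere (0 : E n) 1 => inner ℝ x (p : E n) ≤ φ p)
    ⟨v, hv⟩ hcl (fun j => by
      have := mem_iInter.1 hx (j + 1) (Sum.inr ⟨j, Nat.lt_succ_self j⟩)
      exact (le_abs_self _).trans this)
  exact hall

end Crest.Agent.R238
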